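import Mathlib

namespace Vale.Agent.P140

open MeasureTheory
open scoped RealInnerProductSpace

/-- Velocity space `ℝ³`. -/
abbrev Vel : Type := EuclideanSpace ℝ (Fin 3)

/-- Phase space `𝕋³ × ℝ³`, with the product of Lebesgue measures. -/
abbrev Phase : Type := (Fin 3 → UnitAddCircle) × Vel

/-- The Maxwellian with density `ρ`, bulk velocity `u` and temperature `T`. -/
noncomputable def maxwellian (ρ : ℝ) (u : Vel) (T : ℝ) (v : Vel) : ℝ :=
  ρ / (2 * Real.pi * T) ^ (3 / 2 : ℝ) * Real.exp (-(‖v - u‖ ^ 2 / (2 * T)))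

/-- The reference Maxwellian `M`. -/
noncomputable def refMax : Vel → ℝ := maxwellian 1 0 1

/-- `H_M(F) = ∫ (F log (F/M) - F + M)`. -/
noncomputable def relH (F : Phase → ℝ) : ℝ :=
  ∫ z : Phase, (F z * Real.log (F z / refMax z.2) - F z + refMax z.2)

/-- `∫ |v|² F`. -/
noncomputable def energy (F : Phase → ℝ) : ℝ := ∫ z : Phase, ‖z.2‖ ^ 2 * F z

/-- `∫ v F`. -/
noncomputable def momentum (F : Phase → ℝ) : Vel := ∫ z : Phase, F z • z.2

/-- `F`, `|v|² F` and `F log F` are integrable and `F ≥ 0`. -/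
def Admissible (F : Phase → ℝ) : Prop :=
  (∀ z, 0 ≤ F z) ∧ Integrable F ∧ Integrable (fun z : Phase => ‖z.2‖ ^ 2 * F z) ∧
    Integrable (fun z : Phase => F z * Real.log (F z))

end Vale.Agent.P140
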