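import Vale.Agent.P140.Defs

namespace Vale.Agent.P140

open MeasureTheory
open scoped RealInnerProductSpace

lemma integrable_gauss (b : ℝ) (hb : 0 < b) (u : Vel) :
    Integrable (fun v : Vel => Real.exp (-(b * ‖v - u‖ ^ 2))) := by
  have h := (GaussianFourier.integrable_cexp_neg_mul_sq_norm_add (V := Vel) (b := (b : ℂ))
    (by simpa using hb) 0 0).norm
  have h' : Integrable (fun v : Vel => Real.exp (-(b * ‖v‖ ^ 2))) := by
    refine h.congr (Filter.Eventually.of_forall (fun v => ?_))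
    simp [Complex.norm_exp, ← Complex.ofReal_pow]
  exact h'.comp_sub_right u

lemma integrable_gauss_sq (b : ℝ) (hb : 0 < b) (u : Vel) :
    Integrable (fun v : Vel => ‖v‖ ^ 2 * Real.exp (-(b * ‖v - u‖ ^ 2))) := by
  refine Integrable.mono' (g := fun v : Vel => (4 / b + 2 * ‖u‖ ^ 2)
    * Real.exp (-(b / 2 * ‖v - u‖ ^ 2))) ((integrable_gauss (b / 2) (by positivity) u).const_mul _)
    (Continuous.aestronglyMeasurable (by fun_prop)) (Filter.Eventually.of_forall (fun v => ?_))
  rw [Real.norm_eq_abs, abs_of_nonneg (by positivity)]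
  set x := b / 2 * ‖v - u‖ ^ 2 with hx
  have h1 : ‖v‖ ≤ ‖v - u‖ + ‖u‖ := by
    calc ‖v‖ = ‖(v - u) + u‖ := by rw [sub_add_cancel]
      _ ≤ _ := norm_add_le _ _
  have h2 : ‖v‖ ^ 2 ≤ 4 / b * x + 2 * ‖u‖ ^ 2 := by
    have e : 4 / b * x = 2 * ‖v - u‖ ^ 2 := by rw [hx]; field_simp; ring
    rw [e]
    nlinarith [norm_nonneg v, norm_nonneg (v - u), norm_nonneg u, sq_nonneg (‖v - u‖ - ‖u‖)]
  have h3 : x * Real.exp (-x) ≤ 1 := by
    rw [Real.exp_neg, ← div_eq_mul_inv, div_le_one (Real.exp_pos x)]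
    linarith [Real.add_one_le_exp x]
  have hx0 : 0 ≤ x := by rw [hx]; positivity
  have h4 : Real.exp (-x) ≤ 1 := Real.exp_le_one_iff.2 (by linarith)
  rw [show Real.exp (-(b * ‖v - u‖ ^ 2)) = Real.exp (-x) * Real.exp (-x) by
    rw [← Real.exp_add, hx]; ring_nf]
  calc ‖v‖ ^ 2 * (Real.exp (-x) * Real.exp (-x))
      ≤ (4 / b * x + 2 * ‖u‖ ^ 2) * (Real.exp (-x) * Real.exp (-x)) := by gcongr
    _ = (4 / b * (x * Real.exp (-x)) + 2 * ‖u‖ ^ 2 * Real.exp (-x)) * Real.exp (-x) := by ring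
    _ ≤ (4 / b * 1 + 2 * ‖u‖ ^ 2 * 1) * Real.exp (-x) := by gcongr
    _ = (4 / b + 2 * ‖u‖ ^ 2) * Real.exp (-x) := by ring

lemma maxwellian_pos {ρ T : ℝ} (hρ : 0 < ρ) (hT : 0 < T) (u v : Vel) :
    0 < maxwellian ρ u T v := by
  unfold maxwellian; positivity

lemma maxwellian_eq (ρ : ℝ) (u : Vel) (T : ℝ) :
    maxwellian ρ u T = fun v =>
      ρ / (2 * Real.pi * T) ^ (3 / 2 : ℝ) * Real.exp (-(1 / (2 * T) * ‖v - u‖ ^ 2)) := by
  funext v; rw [maxwellian]; ring_nf

lemma log_maxwellian {ρ T : ℝ} (hρ : 0 < ρ) (hT : 0 < T) (u v : Vel) :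
    Real.log (maxwellian ρ u T v) = Real.log (ρ / (2 * Real.pi * T) ^ (3 / 2 : ℝ))
      - ‖u‖ ^ 2 / (2 * T) + ⟪(1 / T) • u, v⟫ - 1 / (2 * T) * ‖v‖ ^ 2 := by
  rw [maxwellian, Real.log_mul (by positivity) (Real.exp_pos _).ne', Real.log_exp,
    norm_sub_sq_real, inner_smul_left, real_inner_comm u v]
  simp
  field_simp
  ring

lemma integrable_snd {g : Vel → ℝ} (hg : Integrable g) :
    Integrable (fun z : Phase => g z.2) := by
  have := (integrable_const (μ := (volume : Measure (Fin 3 → UnitAddCircle))) (1 : ℝ)).mul_prod hg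
  simpa [Measure.volume_eq_prod] using this

lemma int_of_admissible {F : Phase → ℝ} (hF : Admissible F) :
    Integrable (fun z : Phase => F z • z.2) := by
  obtain ⟨h0, h1, h2, -⟩ := hF
  refine Integrable.mono' (h1.add h2) ?_ (Filter.Eventually.of_forall (fun z => ?_))
  · exact h1.aestronglyMeasurable.smul measurable_snd.aestronglyMeasurable
  · simp only [norm_smul, Real.norm_eq_abs, abs_of_nonneg (h0 z), Pi.add_apply]
    nlinarith [h0 z, norm_nonneg z.2, mul_nonneg (h0 z) (sq_nonneg (‖z.2‖ - 1)),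
      mul_nonneg (h0 z) (norm_nonneg z.2)]

lemma admissible_maxwellian {ρ T : ℝ} (hρ : 0 < ρ) (hT : 0 < T) (u : Vel) :
    Admissible (fun z : Phase => maxwellian ρ u T z.2) := by
  have hb : (0:ℝ) < 1 / (2 * T) := by positivity
  set k := ρ / (2 * Real.pi * T) ^ (3 / 2 : ℝ)
  have g0 : Integrable (maxwellian ρ u T) := by
    rw [maxwellian_eq]; exact (integrable_gauss _ hb u).const_mul _
  have g2 : Integrable (fun v => ‖v‖ ^ 2 * maxwellian ρ u T v) := by
    rw [maxwellian_eq]
    exact ((integrable_gauss_sq _ hb u).const_mul k).congr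
      (Filter.Eventually.of_forall (fun v => by simp only [k]; ring))
  refine ⟨fun z => (maxwellian_pos hρ hT u z.2).le, integrable_snd g0, integrable_snd g2,
    integrable_snd (g := fun v => maxwellian ρ u T v * Real.log (maxwellian ρ u T v)) ?_⟩
  have hm : Continuous (maxwellian ρ u T) := by rw [maxwellian_eq]; fun_prop
  refine Integrable.mono' (g := fun v => (|Real.log k| + ‖u‖ ^ 2 / T) * maxwellian ρ u T v
    + 1 / T * (‖v‖ ^ 2 * maxwellian ρ u T v)) ((g0.const_mul _).add (g2.const_mul _))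
    (hm.aestronglyMeasurable.mul
      (hm.log (fun v => (maxwellian_pos hρ hT u v).ne')).aestronglyMeasurable)
    (Filter.Eventually.of_forall (fun v => ?_))
  have e : Real.log (maxwellian ρ u T v) = Real.log k - ‖v - u‖ ^ 2 / (2 * T) := by
    rw [maxwellian, Real.log_mul (by positivity) (Real.exp_pos _).ne', Real.log_exp]; ring
  have hn : ‖v - u‖ ^ 2 ≤ 2 * ‖v‖ ^ 2 + 2 * ‖u‖ ^ 2 := by
    have := norm_sub_le v u
    nlinarith [norm_nonneg (v - u), sq_nonneg (‖v‖ - ‖u‖)]
  have hab : |Real.log (maxwellian ρ u T v)|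
      ≤ |Real.log k| + ‖u‖ ^ 2 / T + 1 / T * ‖v‖ ^ 2 := by
    rw [e]
    refine (abs_sub _ _).trans ?_
    rw [abs_of_nonneg (show 0 ≤ ‖v - u‖ ^ 2 / (2 * T) by positivity)]
    have : ‖v - u‖ ^ 2 / (2 * T) ≤ ‖u‖ ^ 2 / T + 1 / T * ‖v‖ ^ 2 := by
      rw [div_le_iff₀ (by positivity)]
      field_simp
      linarith
    linarith
  rw [Real.norm_eq_abs, abs_mul, abs_of_pos (maxwellian_pos hρ hT u v)]
  have := mul_le_mul_of_nonneg_left hab (maxwellian_pos hρ hT u v).le
  linarith

/-- The pointwise relative entropy density. -/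
noncomputable def dens (a g : ℝ) : ℝ := a * Real.log (a / g) - a + g

lemma dens_eq_mul {a g : ℝ} (hg : 0 < g) :
    dens a g = g * InformationTheory.klFun (a / g) := by
  unfold dens InformationTheory.klFun
  field_simp
  ring

theorem eq_maxwellian_of_relH_le {ρ T : ℝ} (hρ : 0 < ρ) (hT : 0 < T) (u : Vel) (F : Phase → ℝ)
    (hF : Admissible F)
    (hmass : ∫ z, F z = ∫ z : Phase, maxwellian ρ u T z.2)
    (hmom : momentum F = momentum (fun z => maxwellian ρ u T z.2))
    (hen : energy F ≤ energy (fun z => maxwellian ρ u T z.2))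
    (hH : relH F ≤ relH (fun z => maxwellian ρ u T z.2))
    (hcase : T ≤ 1 ∨ energy F = energy (fun z => maxwellian ρ u T z.2)) :
    F =ᵐ[volume] fun z => maxwellian ρ u T z.2 := by
  set G : Phase → ℝ := fun z => maxwellian ρ u T z.2 with hG
  set M : Phase → ℝ := fun z => refMax z.2 with hM
  have hGpos : ∀ z, 0 < G z := fun z => maxwellian_pos hρ hT u z.2
  have hMpos : ∀ z : Phase, 0 < M z := fun z => maxwellian_pos one_pos one_pos 0 z.2
  have hGad : Admissible G := admissible_maxwellian hρ hT u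
  have hMint : Integrable M := (admissible_maxwellian one_pos one_pos 0).2.1
  set c0 : ℝ := Real.log (1 / (2 * Real.pi * 1) ^ (3 / 2 : ℝ))
    - Real.log (ρ / (2 * Real.pi * T) ^ (3 / 2 : ℝ)) + ‖u‖ ^ 2 / (2 * T) with hc0
  set a : Vel := -((1 / T) • u) with ha
  set c : ℝ := 1 / (2 * T) - 1 / 2 with hc
  have hlog : ∀ z : Phase, Real.log (M z) - Real.log (G z)
      = c0 + ⟪a, z.2⟫ + c * ‖z.2‖ ^ 2 := by
    intro z
    simp only [hM, hG, refMax, log_maxwellian one_pos one_pos, log_maxwellian hρ hT]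
    simp [hc0, ha, hc, inner_neg_left]
    ring
  -- the pointwise identity
  have hpt : ∀ K : Phase → ℝ, (∀ z, 0 ≤ K z) → ∀ z, dens (K z) (G z) =
      dens (K z) (M z) + c0 * K z + ⟪a, K z • z.2⟫ + c * (‖z.2‖ ^ 2 * K z) + (G z - M z) := by
    intro K hK z
    rcases (hK z).eq_or_lt with h | h
    · simp [dens, ← h]
    · unfold dens
      rw [Real.log_div h.ne' (hGpos z).ne', Real.log_div h.ne' (hMpos z).ne', inner_smul_right]
      linear_combination K z * hlog z
  -- integrability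
  have hdM : ∀ K : Phase → ℝ, Admissible K → Integrable (fun z => dens (K z) (M z)) := by
    intro K hK
    obtain ⟨h0, h1, h2, h3⟩ := hK
    set k1 : ℝ := Real.log (1 / (2 * Real.pi * 1) ^ (3 / 2 : ℝ))
    refine (((h3.sub (h1.const_mul (k1 + 1))).add (h2.const_mul (1 / 2))).add hMint).congr
      (Filter.Eventually.of_forall (fun z => ?_))
    rcases (h0 z).eq_or_lt with h | h
    · simp [dens, ← h]
    · simp only [dens, Pi.add_apply, Pi.sub_apply]
      rw [Real.log_div h.ne' (hMpos z).ne']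
      simp only [hM, refMax, log_maxwellian one_pos one_pos]
      simp [k1]
      ring
  have hdG : ∀ K : Phase → ℝ, Admissible K →
      Integrable (fun z => dens (K z) (G z)) ∧
      (∫ z, dens (K z) (G z)) = relH K + c0 * (∫ z, K z) + ⟪a, momentum K⟫ + c * energy K
        + ((∫ z, G z) - ∫ z, M z) := by
    intro K hK
    have i1 := hdM K hK
    have i2 := hK.2.1.const_mul c0
    have i3 : Integrable (fun z => ⟪a, K z • z.2⟫) := (int_of_admissible hK).const_inner a
    have i4 := hK.2.2.1.const_mul c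
    have i5 := hGad.2.1.sub hMint
    have e : (fun z => dens (K z) (G z)) = fun z => dens (K z) (M z) + c0 * K z + ⟪a, K z • z.2⟫
        + c * (‖z.2‖ ^ 2 * K z) + (G z - M z) := funext (hpt K hK.1)
    have i12 : Integrable (fun z => dens (K z) (M z) + c0 * K z) := i1.add i2
    have i123 : Integrable (fun z => dens (K z) (M z) + c0 * K z + ⟪a, K z • z.2⟫) := i12.add i3
    have i1234 : Integrable (fun z => dens (K z) (M z) + c0 * K z + ⟪a, K z • z.2⟫
        + c * (‖z.2‖ ^ 2 * K z)) := i123.add i4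
    refine ⟨by rw [e]; exact i1234.add i5, ?_⟩
    rw [e, integral_add i1234 (by exact i5), integral_add i123 i4, integral_add i12 i3,
      integral_add i1 i2, integral_const_mul, integral_const_mul,
      integral_inner (int_of_admissible hK) a, integral_sub hGad.2.1 hMint]
    rfl
  obtain ⟨hiF, hvF⟩ := hdG F hF
  obtain ⟨-, hvG⟩ := hdG G hGad
  have hzero : (∫ z, dens (G z) (G z)) = 0 := by
    simp [dens, div_self (hGpos _).ne']
  have hnn : ∀ z, 0 ≤ dens (F z) (G z) := fun z => by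
    rw [dens_eq_mul (hGpos z)]
    exact mul_nonneg (hGpos z).le
      (InformationTheory.klFun_nonneg (div_nonneg (hF.1 z) (hGpos z).le))
  have hcE : c * energy F ≤ c * energy G := by
    rcases hcase with h | h
    · refine mul_le_mul_of_nonneg_left hen ?_
      rw [hc, sub_nonneg, div_le_div_iff₀ two_pos (by positivity)]
      linarith
    · rw [h]
  have hle : (∫ z, dens (F z) (G z)) ≤ 0 := by
    rw [hzero] at hvG
    rw [hvF, hmass, hmom]
    linarith
  have hae := (integral_eq_zero_iff_of_nonneg hnn hiF).1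
    (le_antisymm hle (integral_nonneg hnn))
  filter_upwards [hae] with z hz
  rw [Pi.zero_apply, dens_eq_mul (hGpos z), mul_eq_zero] at hz
  rcases hz with hz | hz
  · exact absurd hz (hGpos z).ne'
  · rw [InformationTheory.klFun_eq_zero_iff (div_nonneg (hF.1 z) (hGpos z).le),
      div_eq_one_iff_eq (hGpos z).ne'] at hz
    exact hz

end Vale.Agent.P140
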